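import Vale.Agent.P343.Core

/-! The doubling step and the resulting lower bound. -/

namespace Vale.Agent.P343

open SetRel

set_option linter.unusedSectionVars false

variable {V : Type} [AddCommGroup V] [Module F V] [Finite V] {X : Type} [DecidableEq X]

theorem claim_step {h μ p : ℕ} (hc : Claim V X h μ) (hp : 12 * (h + 4 * p + 3) ≤ p ^ 2) :
    Claim V X (h + 4 * p + 3) (2 * μ) := by
  classical
  intro S A e hS hA hcard he hee
  by_contra hfar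
  unfold Far at hfar
  push Not at hfar
  obtain ⟨B, hBA, hB⟩ := Finset.exists_subset_card_eq (s := A) (n := h) (by omega)
  have hR : Fintype.card ((Fin p × Fin 4) ⊕ Fin 3) = Fintype.card ↥(A \ B) := by
    simp only [Fintype.card_sum, Fintype.card_prod, Fintype.card_fin, Fintype.card_coe,
      Finset.card_sdiff_of_subset hBA]
    omega
  obtain ⟨t, tinj, tmem⟩ : ∃ t : (Fin p × Fin 4) ⊕ Fin 3 → X, Function.Injective t ∧
      ∀ s, t s ∈ A ∧ t s ∉ B :=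
    ⟨fun s => (Fintype.equivOfCardEq hR s : X),
      Subtype.val_injective.comp (Fintype.equivOfCardEq hR).injective,
      fun s => Finset.mem_sdiff.mp (Fintype.equivOfCardEq hR s).2⟩
  obtain ⟨z, hz⟩ : ∃ z, z = t (.inr 0) := ⟨_, rfl⟩
  obtain ⟨i₀, hi₀⟩ : ∃ z, z = t (.inr 1) := ⟨_, rfl⟩
  obtain ⟨j₀, hj₀⟩ : ∃ z, z = t (.inr 2) := ⟨_, rfl⟩
  have zA : z ∈ A := hz ▸ (tmem _).1
  have iA : i₀ ∈ A := hi₀ ▸ (tmem _).1
  have jA : j₀ ∈ A := hj₀ ▸ (tmem _).1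
  have zB : z ∉ B := hz ▸ (tmem _).2
  have jB : j₀ ∉ B := hj₀ ▸ (tmem _).2
  have n1 : z ≠ i₀ := by rw [hz, hi₀, tinj.ne_iff]; simp
  have n2 : z ≠ j₀ := by rw [hz, hj₀, tinj.ne_iff]; simp
  have n3 : i₀ ≠ j₀ := by rw [hi₀, hj₀, tinj.ne_iff]; simp
  have hγ : ∀ b, ∃ g, b ∈ A.erase z → S g (sw A z b) ∧ dist e g ≤ 2 * μ - 1 := by
    intro b
    by_cases hb : b ∈ A.erase z
    · obtain ⟨g, h1, h2⟩ := hfar z zA b (Finset.mem_of_mem_erase hb) (Finset.ne_of_mem_erase hb).symm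
      exact ⟨g, fun _ => ⟨h1, by omega⟩⟩
    · exact ⟨e, fun h => absurd h hb⟩
  have hμ : 0 < μ := by
    obtain ⟨g, _, h2⟩ := hfar z zA i₀ iA n1
    omega
  choose γ hγ using hγ
  obtain ⟨lo, hi, α, β, hlo, hhi, hαβ, hsand⟩ :=
    sandwich e γ (2 * μ - 1) (A.erase z) (fun b hb => (hγ b hb).2)
  rw [Finset.card_erase_of_mem zA, hcard] at hαβ
  -- the bipartite classes
  obtain ⟨P, hPdef⟩ : ∃ P : Set X, ∀ x, x ∈ P ↔
      (x = t (.inr 1) ∨ ∃ i, x = t (.inl (i, 0)) ∨ x = t (.inl (i, 1))) := ⟨_, fun _ => Iff.rfl⟩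
  obtain ⟨Q, hQdef⟩ : ∃ Q : Set X, ∀ x, x ∈ Q ↔
      (x = t (.inr 2) ∨ ∃ i, x = t (.inl (i, 2)) ∨ x = t (.inl (i, 3))) := ⟨_, fun _ => Iff.rfl⟩
  have hP : ∀ x ∈ P, x ∈ A ∧ x ≠ z ∧ x ∉ Q := by
    intro x hx
    rw [hQdef, hz]
    rcases (hPdef x).mp hx with rfl | ⟨i, rfl | rfl⟩ <;> simp [tmem, tinj.eq_iff]
  have hQ : ∀ x ∈ Q, x ∈ A ∧ x ≠ z := by
    intro x hx
    rw [hz]
    rcases (hQdef x).mp hx with rfl | ⟨i, rfl | rfl⟩ <;> simp [tmem, tinj.eq_iff]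
  have hPB : ∀ x ∈ P, x ∉ B := by
    intro x hx
    rcases (hPdef x).mp hx with rfl | ⟨i, rfl | rfl⟩ <;> exact (tmem _).2
  have hQB : ∀ x ∈ Q, x ∉ B := by
    intro x hx
    rcases (hQdef x).mp hx with rfl | ⟨i, rfl | rfl⟩ <;> exact (tmem _).2
  have hG₀ : Bip P Q {(i₀, j₀)} := by
    rintro x y ⟨rfl, rfl⟩
    exact ⟨(hPdef _).mpr (Or.inl hi₀), (hQdef _).mpr (Or.inl hj₀)⟩
  -- the special idempotent
  obtain ⟨κ₀, hκ₀⟩ := hA.hkk z zA i₀ iA j₀ jA n1 n2 n3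
  have h0 := hS.mul he (hS.mul hκ₀ he)
  rw [idA_kk_idA iA jA] at h0
  obtain ⟨κ, k1, k2, k3, k4⟩ : ∃ κ, S κ (kk A z i₀ j₀) ∧ κ * κ = κ ∧ e * κ = κ ∧ κ * e = κ := by
    obtain ⟨m, hm⟩ := hS.below hee h0 (uu_idem hG₀ hP)
    exact ⟨_, hm⟩
  -- the generated subsystem
  let T : LR V → SetRel X X → Prop := fun x a =>
    (∃ b ∈ A.erase z, x = γ b ∧ a = sw A z b) ∨ (x = κ ∧ a = kk A z i₀ j₀)
  have hT : ∀ x a, T x a → S x a := by
    rintro x a (⟨b, hb, rfl, rfl⟩ | ⟨rfl, rfl⟩)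
    · exact (hγ b hb).1
    · exact k1
  have hS' : Sys (Gen T) := Gen.sys hS hT
  have hwin : ∀ x a, Gen T x a → rk κ ≤ rk x + α + β := by
    intro x a hx
    refine window hee k2 k3 k4 hlo hhi (hx.inv ?_)
    rintro x a (⟨b, hb, rfl, rfl⟩ | ⟨rfl, rfl⟩)
    · exact inv_of_le (inf_le_left.trans (hsand b hb).1) ((hsand b hb).2.trans le_sup_left)
    · exact inv_of_le inf_le_right le_sup_right
  have hA' : Good (Gen T) A := good_of_star hS' zA zA iA jA n1 n2 n3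
    (fun b hb hzb => ⟨γ b, .base (Or.inl ⟨b, Finset.mem_erase.mpr ⟨hzb.symm, hb⟩, rfl, rfl⟩)⟩)
    ⟨κ, .base (Or.inr ⟨rfl, rfl⟩)⟩
  have hBsub : B ⊆ (A.erase z).erase j₀ := fun x hx => by
    simp only [Finset.mem_erase]
    exact ⟨fun h => jB (h ▸ hx), fun h => zB (h ▸ hx), hBA hx⟩
  obtain ⟨e', e1, e2, e3⟩ := hS'.generic (has_idA hS' hA' zA iA jA n1 n2 n3 B hBsub) (idA_idem B)
  have hfar' := hc _ B e' hS' (good_sub hS' hA' zA iA jA n1 n2 n3 B hBsub) hB e1 e2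
  have chain : ∀ U : Finset (Fin p × Fin p), ∃ G η, Bip P Q G ∧
      (∀ q ∈ G, q.1 = t (.inr 1) ∨ ∃ u ∈ U,
        (q.1 = t (.inl (u.1, 0)) ∨ q.1 = t (.inl (u.1, 1))) ∧
          (q.2 = t (.inl (u.2, 2)) ∨ q.2 = t (.inl (u.2, 3)))) ∧
      Gen T η (uu A z G) ∧ η * η = η ∧ 6 * rk η + U.card * μ ≤ 6 * rk κ := by
    intro U
    induction U using Finset.induction_on with
    | empty =>
      refine ⟨{(i₀, j₀)}, κ, hG₀, ?_, .base (Or.inr ⟨rfl, rfl⟩), k2, by simp⟩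
      rintro q rfl
      exact Or.inl hi₀
    | insert u U hu ih =>
      obtain ⟨G, η, c1, c2, c3, c4, c5⟩ := ih
      have hfree : ∀ (r s : Fin 4), (t (.inl (u.1, r)), t (.inl (u.2, s))) ∉ G := by
        intro r s hmem
        rcases c2 _ hmem with h | ⟨u', hu', h1, h2⟩
        · simp [tinj.eq_iff] at h
        · simp only [tinj.eq_iff, Sum.inl.injEq, Prod.mk.injEq] at h1 h2
          have : u = u' := Prod.ext (by tauto) (by tauto)
          exact hu (this ▸ hu')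
      obtain ⟨G', η', d1, d2, d3, d4, d5⟩ := chain_step hS' hA' zA hBA zB hP hQ hPB hQB e1 e3
        hfar' c1 c3 c4 (a := t (.inl (u.1, 0))) (b := t (.inl (u.1, 1)))
        (c := t (.inl (u.2, 2))) (d := t (.inl (u.2, 3)))
        ((hPdef _).mpr (Or.inr ⟨_, Or.inl rfl⟩)) ((hPdef _).mpr (Or.inr ⟨_, Or.inr rfl⟩))
        (by simp [tinj.eq_iff])
        ((hQdef _).mpr (Or.inr ⟨_, Or.inl rfl⟩)) ((hQdef _).mpr (Or.inr ⟨_, Or.inr rfl⟩))
        (by simp [tinj.eq_iff]) (hfree _ _) (hfree _ _) (hfree _ _) (hfree _ _)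
      refine ⟨G', η', d1, fun q hq => ?_, d3, d4, ?_⟩
      · rcases d2 q hq with h | h
        · rcases c2 q h with h | ⟨u', hu', h⟩
          · exact Or.inl h
          · exact Or.inr ⟨u', Finset.mem_insert_of_mem hu', h⟩
        · exact Or.inr ⟨u, Finset.mem_insert_self _ _, h⟩
      · rw [Finset.card_insert_of_notMem hu, add_mul]; omega
  obtain ⟨G, η, -, -, c3, -, c5⟩ := chain Finset.univ
  have c6 := hwin _ _ c3
  simp only [Finset.card_univ, Fintype.card_prod, Fintype.card_fin] at c5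
  obtain ⟨ν, rfl⟩ : ∃ ν, μ = ν + 1 := ⟨μ - 1, by omega⟩
  rw [show 2 * (ν + 1) - 1 = 2 * ν + 1 by omega,
    show h + 4 * p + 3 - 1 = h + 4 * p + 2 by omega] at hαβ
  have c7 : p * p * (ν + 1) ≤ 6 * ((h + 4 * p + 2) * (2 * ν + 1)) := by omega
  have c8 : 12 * (h + 4 * p + 3) * (ν + 1) ≤ p * p * (ν + 1) :=
    Nat.mul_le_mul_right _ (by nlinarith)
  nlinarith

theorem claim_all (j : ℕ) : Claim V X (100 * j ^ 2 + 103 * j + 2) (2 ^ j) := by
  induction j with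
  | zero => exact claim_base
  | succ j ih =>
    have := claim_step (p := 50 * (j + 1)) ih (by nlinarith)
    rw [pow_succ' 2 j, show 100 * (j + 1) ^ 2 + 103 * (j + 1) + 2 =
      100 * j ^ 2 + 103 * j + 2 + 4 * (50 * (j + 1)) + 3 by ring]
    exact this

/-- The dimension bound. -/
theorem dim_bound (j : ℕ) {S : LR V → SetRel X X → Prop} (hS : Sys S) {A : Finset X}
    (hA : A.card = 100 * j ^ 2 + 103 * j + 2) (hall : ∀ b, Has S b) :
    2 ^ j ≤ 4 * Module.finrank F V := by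
  obtain ⟨e, e1, e2, -⟩ := hS.generic (hall (idA A)) (idA_idem A)
  obtain ⟨a, -, b, -, -, h⟩ := claim_all j S A e hS
    ⟨fun _ _ _ _ _ => hall _, fun _ _ _ _ _ _ _ _ _ => hall _⟩ hA e1 e2
  obtain ⟨g, hg⟩ := hall (sw A a b)
  exact (h g hg).trans (dist_le _ _)

end Vale.Agent.P343
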