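import Vale.Agent.P343.Defs
import Vale.Agent.P343.Step

/-! Deterministic two-way automata act through linear relations. -/

namespace Vale.Agent.P343

open SetRel

variable {σ : Type} {m : ℕ}

def pick {α : Type} : Move → α → α → α → α
  | .left, l, _, _ => l
  | .stay, _, c, _ => c
  | .right, _, _, r => r

lemma pick_apply {α : Type} (mv : Move) (f : ℕ → α) (i : ℕ) :
    pick mv (f (i - 1)) (f i) (f (i + 1)) = f (mv.apply i) := by
  cases mv <;> rfl

/-- consistency of a labelling at one cell -/
def Loc (B : TwoNFA σ m) (s : Sym σ) (l c r : Fin m → F) : Prop :=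
  ∀ q, (q ∈ B.accept → c q = 0) ∧
    (q ∉ B.accept → ∀ q' mv, (q', mv) ∈ B.δ q s → c q = pick mv l c r q')

lemma loc_lend {B : TwoNFA σ m} {l c r : Fin m → F} (l' : Fin m → F) (h : Loc B .lend l c r) :
    Loc B .lend l' c r := by
  intro q
  refine ⟨(h q).1, fun hq q' mv hm => ?_⟩
  cases mv
  · exact absurd hm (B.no_left _ _)
  · exact (h q).2 hq q' _ hm
  · exact (h q).2 hq q' _ hm

lemma loc_rend {B : TwoNFA σ m} {l c r : Fin m → F} (r' : Fin m → F) (h : Loc B .rend l c r) :
    Loc B .rend l c r' := by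
  intro q
  refine ⟨(h q).1, fun hq q' mv hm => ?_⟩
  cases mv
  · exact (h q).2 hq q' _ hm
  · exact (h q).2 hq q' _ hm
  · exact absurd hm (B.no_right _ _)

abbrev VV (m : ℕ) := (Fin m → F) × (Fin m → F)

/-- the linear relation of a letter -/
def tau (B : TwoNFA σ m) (a : σ) : LR (VV m) where
  s :=
    { carrier := {p | p.1.2 = p.2.1 ∧ Loc B (.letter a) p.1.1 p.1.2 p.2.2}
      zero_mem' := ⟨rfl, fun q => ⟨fun _ => rfl, fun _ q' mv _ => by cases mv <;> rfl⟩⟩
      add_mem' := by
        rintro x y ⟨h1, h2⟩ ⟨h3, h4⟩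
        refine ⟨by simp [h1, h3], fun q => ⟨fun hq => ?_, fun hq q' mv hm => ?_⟩⟩
        · simp [(h2 q).1 hq, (h4 q).1 hq]
        · have e1 := (h2 q).2 hq q' mv hm
          have e2 := (h4 q).2 hq q' mv hm
          cases mv <;> simp only [pick] at e1 e2 ⊢ <;> simp [e1, e2]
      smul_mem' := by
        rintro t x ⟨h1, h2⟩
        refine ⟨by simp [h1], fun q => ⟨fun hq => ?_, fun hq q' mv hm => ?_⟩⟩
        · simp [(h2 q).1 hq]
        · have e1 := (h2 q).2 hq q' mv hm
          cases mv <;> simp only [pick] at e1 ⊢ <;> simp [e1] }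

def tauw (B : TwoNFA σ m) (w : List σ) : LR (VV m) := (w.map (tau B)).prod

lemma tauw_append (B : TwoNFA σ m) (u v : List σ) : tauw B (u ++ v) = tauw B u * tauw B v := by
  simp [tauw]

lemma mem_tauw (B : TwoNFA σ m) (w : List σ) (α β : VV m) : (α, β) ∈ (tauw B w).s ↔
    ∃ f : ℕ → Fin m → F, α = (f 0, f 1) ∧ β = (f w.length, f (w.length + 1)) ∧
      ∀ i < w.length, Loc B (tape w (i + 1)) (f i) (f (i + 1)) (f (i + 2)) := by
  induction w generalizing α with
  | nil =>
    simp only [tauw, List.map_nil, List.prod_nil, mem_one, List.length_nil]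
    constructor
    · rintro rfl
      exact ⟨fun i => if i = 0 then α.1 else α.2, by simp, by simp, by simp⟩
    · rintro ⟨f, rfl, rfl, -⟩; rfl
  | cons a w ih =>
    have : tauw B (a :: w) = tau B a * tauw B w := by simp [tauw]
    rw [this, mem_mul]
    constructor
    · rintro ⟨γ, ⟨h1, h2⟩, h3⟩
      obtain ⟨f, rfl, rfl, h4⟩ := (ih γ).mp h3
      refine ⟨fun i => Nat.casesOn i α.1 f, Prod.ext rfl h1, rfl, fun i hi => ?_⟩
      cases i with
      | zero =>
        simp only at h1 h2
        rw [h1] at h2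
        exact h2
      | succ i => exact h4 i (by simpa using hi)
    · rintro ⟨f, rfl, rfl, h⟩
      exact ⟨(f 1, f 2), ⟨rfl, h 0 (by simp)⟩, (ih _).mpr ⟨fun i => f (i + 1), rfl, rfl,
        fun i hi => h (i + 1) (by simpa using hi)⟩⟩

lemma tape_end (w : List σ) : tape w (w.length + 1) = .rend := by
  simp [tape]

lemma mem_lang_iff {B : TwoNFA σ m} (hB : B.Det) (w : List σ) : w ∈ B.lang ↔
    ∀ α β : VV m, (α, β) ∈ (tauw B w).s → Loc B .lend 0 α.1 α.2 → Loc B .rend β.1 β.2 0 →
      α.1 B.start = 0 := by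
  classical
  constructor
  · rintro ⟨c, hc, hacc⟩ α β h hl hr
    obtain ⟨f, rfl, rfl, hf⟩ := (mem_tauw B w α β).mp h
    have hall : ∀ i ≤ w.length + 1, Loc B (tape w i) (f (i - 1)) (f i) (f (i + 1)) := by
      intro i hi
      rcases i with _ | i
      · exact loc_lend _ hl
      rcases Nat.lt_or_ge i w.length with h1 | h1
      · exact hf i h1
      · obtain rfl : i = w.length := by omega
        rw [tape_end]
        exact loc_rend _ hr
    have key : ∀ c' : Fin m × ℕ, Relation.ReflTransGen (B.Step w) c' c → c'.2 ≤ w.length + 1 →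
        f c'.2 c'.1 = 0 := by
      intro c' hc'
      induction hc' using Relation.ReflTransGen.head_induction_on with
      | refl => exact fun hle => (hall _ hle _).1 hacc
      | @head a b hab _ ih =>
        intro hle
        by_cases hq : a.1 ∈ B.accept
        · exact (hall _ hle _).1 hq
        obtain ⟨mv, h1, h2⟩ := hab
        rw [(hall _ hle _).2 hq _ _ h1, pick_apply, ← h2]
        refine ih ?_
        rw [h2]
        cases mv
        · simp only [Move.apply]; omega
        · exact hle
        · simp only [Move.apply]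
          by_contra hlt
          have : a.2 = w.length + 1 := by omega
          rw [this, tape_end] at h1
          exact B.no_right _ _ h1
    exact key _ hc (by simp)
  · intro h
    by_contra hw
    let R : Fin m × ℕ → Prop := fun c₀ =>
      ∃ c, Relation.ReflTransGen (B.Step w) c₀ c ∧ c.1 ∈ B.accept
    let f : ℕ → Fin m → F := fun i q => if R (q, i) then 0 else 1
    have hall : ∀ i, Loc B (tape w i) (f (i - 1)) (f i) (f (i + 1)) := by
      intro i q
      refine ⟨fun hq => if_pos ⟨_, .refl, hq⟩, fun hq q' mv hm => ?_⟩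
      rw [pick_apply]
      have : R (q, i) ↔ R (q', mv.apply i) := by
        constructor
        · rintro ⟨c, hc, hacc⟩
          rcases hc.cases_head with rfl | ⟨c', ⟨mv', h1, h2⟩, h3⟩
          · exact absurd hacc hq
          · have := hB _ _ hm h1
            simp only [Prod.mk.injEq] at this
            obtain ⟨e1, rfl⟩ := this
            have : c' = (q', mv.apply i) := Prod.ext e1.symm h2
            exact ⟨c, this ▸ h3, hacc⟩
        · rintro ⟨c, hc, hacc⟩
          exact ⟨c, .head ⟨mv, hm, rfl⟩ hc, hacc⟩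
      simp only [f, this]
    have h1 := h (f 0, f 1) (f w.length, f (w.length + 1))
      ((mem_tauw B w _ _).mpr ⟨f, rfl, rfl, fun i _ => hall (i + 1)⟩) (loc_lend _ (hall 0))
      (loc_rend _ (by have := hall (w.length + 1); rwa [tape_end] at this))
    have h2 : ¬ R (B.start, 0) := hw
    simp [f, h2] at h1

lemma lang_congr {B : TwoNFA σ m} (hB : B.Det) {w w' : List σ} (h : tauw B w = tauw B w')
    (u v : List σ) : u ++ (w ++ v) ∈ B.lang ↔ u ++ (w' ++ v) ∈ B.lang := by
  simp only [mem_lang_iff hB, tauw_append, h]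

/-- product of a word of relations -/
def piw {X : Type} (w : List (SetRel X X)) : SetRel X X := w.foldr (· ○ ·) SetRel.id

lemma piw_append {X : Type} (u v : List (SetRel X X)) : piw (u ++ v) = piw u ○ piw v := by
  induction u with
  | nil => simp [piw]
  | cons a u ih =>
    have : ∀ w, piw (a :: w) = a ○ piw w := fun _ => rfl
    rw [List.cons_append, this, this, ih, comp_assoc]

lemma piw_single {X : Type} (a : SetRel X X) : piw [a] = a := by simp [piw]

/-- the one-way automaton for liveness -/
def owl (h : ℕ) : TwoNFA (SetRel (Fin h) (Fin h)) (h + 1) where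
  start := 0
  accept := {Fin.last h}
  δ q s := match s with
    | .lend => {p | p.1 ≠ Fin.last h ∧ p.2 = .right}
    | .letter R => {p | p.2 = .right ∧ ∃ i j, q = Fin.castSucc i ∧ p.1 = Fin.castSucc j ∧ (i, j) ∈ R}
    | .rend => {(Fin.last h, .stay)}
  no_left := by simp
  no_right := by simp

lemma owl_oneWay (h : ℕ) : (owl h).OneWay := by
  intro q s q'
  cases s <;> simp [owl]

lemma owl_run {h : ℕ} (v u : List (SetRel (Fin h) (Fin h))) {i j : Fin h} (hij : (i, j) ∈ piw v) :
    Relation.ReflTransGen ((owl h).Step (u ++ v)) (i.castSucc, u.length + 1)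
      (j.castSucc, (u ++ v).length + 1) := by
  induction v generalizing u i with
  | nil =>
    obtain rfl : i = j := hij
    simpa using Relation.ReflTransGen.refl
  | cons a v ih =>
    obtain ⟨k, h1, h2⟩ : ∃ k, (i, k) ∈ a ∧ (k, j) ∈ piw v := hij
    have := ih (u ++ [a]) h2
    rw [List.append_assoc, List.singleton_append, List.length_append, List.length_singleton] at this
    refine .head ⟨.right, ?_, rfl⟩ this
    simp only [tape, List.getElem?_append_right le_rfl, Nat.sub_self, List.getElem?_cons_zero]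
    exact ⟨rfl, i, k, rfl, rfl, h1⟩

lemma owl_lang {h : ℕ} (hh : 0 < h) (w : List (SetRel (Fin h) (Fin h))) :
    w ∈ (owl h).lang ↔ ∃ i j, (i, j) ∈ piw w := by
  constructor
  · rintro ⟨c, hc, hacc⟩
    have key : c = (0, 0) ∨ (∃ i j k, c = (Fin.castSucc j, k + 1) ∧ k ≤ w.length ∧
        (i, j) ∈ piw (w.take k)) ∨ ∃ i j, (i, j) ∈ piw w := by
      clear hacc
      induction hc with
      | refl => exact Or.inl rfl
      | @tail b c _ hbc ih =>
        obtain ⟨mv, h1, h2⟩ := hbc
        rcases ih with rfl | ⟨i, j, k, rfl, hk, hij⟩ | ih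
        · obtain ⟨h3, rfl⟩ : c.1 ≠ Fin.last h ∧ mv = .right := h1
          obtain ⟨j, hj⟩ := Fin.exists_castSucc_eq.mpr h3
          exact Or.inr (Or.inl ⟨j, j, 0, Prod.ext hj.symm h2, by simp, rfl⟩)
        · rcases Nat.lt_or_ge k w.length with h3 | h3
          · simp only [tape, List.getElem?_eq_getElem h3] at h1
            obtain ⟨rfl, i', j', e1, e2, e3⟩ : mv = .right ∧ ∃ i' j', Fin.castSucc j = Fin.castSucc i' ∧
              c.1 = Fin.castSucc j' ∧ (i', j') ∈ w[k] := h1
            obtain rfl := Fin.castSucc_injective _ e1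
            refine Or.inr (Or.inl ⟨i, j', k + 1, Prod.ext e2 h2, h3, ?_⟩)
            rw [List.take_succ_eq_append_getElem h3, piw_append, piw_single]
            exact ⟨j, hij, e3⟩
          · rw [List.take_of_length_le h3] at hij
            exact Or.inr (Or.inr ⟨i, j, hij⟩)
        · exact Or.inr (Or.inr ih)
    rcases key with rfl | ⟨i, j, k, rfl, -⟩ | h1
    · have : (0 : Fin (h + 1)) = Fin.last h := hacc
      simp [Fin.ext_iff] at this
      omega
    · exact absurd hacc (Fin.castSucc_ne_last j)
    · exact h1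
  · rintro ⟨i, j, hij⟩
    refine ⟨(Fin.last h, w.length + 1), ?_, rfl⟩
    refine .head (b := (i.castSucc, 1)) ⟨.right, ⟨Fin.castSucc_ne_last i, rfl⟩, rfl⟩ ?_
    refine .tail (owl_run w [] hij) ⟨.stay, ?_, rfl⟩
    simp only [List.nil_append, tape_end]
    rfl

theorem lower_bound (j m : ℕ) (B : TwoNFA (SetRel (Fin (100 * j ^ 2 + 103 * j + 2))
    (Fin (100 * j ^ 2 + 103 * j + 2))) m) (hB : B.Det)
    (hL : B.lang = (owl (100 * j ^ 2 + 103 * j + 2)).lang) : 2 ^ j ≤ 8 * m := by
  have hS : Sys (fun x b => ∃ w, x = tauw B w ∧ b = piw w) := by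
    refine ⟨?_, ?_⟩
    · rintro _ _ _ _ ⟨u, rfl, rfl⟩ ⟨v, rfl, rfl⟩
      exact ⟨u ++ v, (tauw_append B u v).symm, (piw_append u v).symm⟩
    · rintro _ _ _ ⟨u, rfl, rfl⟩ ⟨v, h, rfl⟩
      ext ⟨a, b⟩
      have := lang_congr hB h [{(a, a)}] [{(b, b)}]
      rw [hL, owl_lang (by omega), owl_lang (by omega)] at this
      simp only [piw_append, piw_single] at this
      simpa using this
  have := dim_bound j hS (A := Finset.univ) (by simp)
    (fun b => ⟨tauw B [b], [b], rfl, (piw_single b).symm⟩)
  simp only [Module.finrank_prod, Module.finrank_fintype_fun_eq_card, Fintype.card_fin] at this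
  omega

lemma poly_small (p : Polynomial ℝ) :
    Filter.Tendsto (fun n : ℕ => p.eval (n : ℝ) / 2 ^ n) Filter.atTop (nhds 0) := by
  induction p using Polynomial.induction_on' with
  | add p q hp hq => simpa [add_div] using hp.add hq
  | monomial k a =>
    have := (tendsto_pow_const_div_const_pow_of_one_lt k (r := (2 : ℝ)) (by norm_num)).const_mul a
    simpa [mul_div_assoc] using this

lemma exists_big (p : Polynomial ℝ) :
    ∃ j : ℕ, 8 * p.eval ((100 * j ^ 2 + 103 * j + 3 : ℕ) : ℝ) < 2 ^ j := by
  have := (poly_small (p.comp (100 * Polynomial.X ^ 2 + 103 * Polynomial.X + 3))).eventually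
    (gt_mem_nhds (show (0 : ℝ) < 1 / 8 by norm_num))
  obtain ⟨j, hj⟩ := this.exists
  refine ⟨j, ?_⟩
  rw [div_lt_iff₀ (by positivity)] at hj
  simp only [Polynomial.eval_comp, Polynomial.eval_add, Polynomial.eval_mul, Polynomial.eval_pow,
    Polynomial.eval_X, Polynomial.eval_ofNat] at hj
  push_cast
  linarith

end Vale.Agent.P343
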