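import Mathlib

/-! Identities between a few explicit binary relations. -/

namespace Vale.Agent.P343

open SetRel

set_option linter.unusedSectionVars false

variable {X : Type} [DecidableEq X]

/-- identity on `A` -/
def idA (A : Finset X) : SetRel X X := {p | p.1 ∈ A ∧ p.2 = p.1}

/-- transposition on `A` -/
def sw (A : Finset X) (a b : X) : SetRel X X := {p | p.1 ∈ A ∧ p.2 = Equiv.swap a b p.1}

/-- identity on `A` without `v`, together with the edges of `G` -/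
def uu (A : Finset X) (v : X) (G : SetRel X X) : SetRel X X :=
  {p | (p.1 ∈ A ∧ p.1 ≠ v ∧ p.2 = p.1) ∨ p ∈ G}

/-- identity on `A` without `v`, together with one edge -/
def kk (A : Finset X) (v i j : X) : SetRel X X := uu A v {(i, j)}

lemma idA_idem (A : Finset X) : idA A ○ idA A = idA A := by
  ext ⟨x, y⟩; simp only [mem_comp, idA, Set.mem_ofPred_eq]; grind

lemma idA_sw (A : Finset X) (a b : X) : idA A ○ sw A a b = sw A a b := by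
  ext ⟨x, y⟩; simp only [mem_comp, idA, sw, Set.mem_ofPred_eq]; grind

lemma sw_ne_idA {A : Finset X} {a b : X} (ha : a ∈ A) (hab : a ≠ b) : sw A a b ≠ idA A := by
  intro h
  have : (a, a) ∈ sw A a b := by rw [h]; exact ⟨ha, rfl⟩
  simp only [sw, Set.mem_ofPred_eq, Equiv.swap_apply_left] at this
  exact hab this.2

lemma sw_comm (A : Finset X) (a b : X) : sw A a b = sw A b a := by
  unfold sw; rw [Equiv.swap_comm]

lemma sw_star {A : Finset X} {a b c : X} (ha : a ∈ A) (hb : b ∈ A) (hc : c ∈ A)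
    (hab : a ≠ b) (hac : a ≠ c) (hbc : b ≠ c) :
    sw A a b ○ (sw A a c ○ sw A a b) = sw A b c := by
  ext ⟨x, y⟩
  simp only [mem_comp, sw, Set.mem_ofPred_eq, Equiv.swap_apply_def]
  constructor
  · rintro ⟨_, ⟨h1, rfl⟩, _, ⟨h2, rfl⟩, h3, rfl⟩
    grind
  · rintro ⟨h1, rfl⟩
    refine ⟨_, ⟨h1, rfl⟩, _, ⟨?_, rfl⟩, ?_, ?_⟩ <;> grind

lemma sw_restrict {A B : Finset X} (hBA : B ⊆ A) (a b : X) : idA B ○ sw A a b = sw B a b := by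
  ext ⟨x, y⟩; simp only [mem_comp, idA, sw, Set.mem_ofPred_eq]; grind

lemma kk_conj {A : Finset X} {a b v i j : X} (ha : a ∈ A) (hb : b ∈ A) (hi : i ∈ A) (hj : j ∈ A) :
    sw A a b ○ (kk A v i j ○ sw A a b) =
      kk A (Equiv.swap a b v) (Equiv.swap a b i) (Equiv.swap a b j) := by
  have hm : ∀ x, x ∈ A → Equiv.swap a b x ∈ A := by
    intro x hx; rw [Equiv.swap_apply_def]; grind
  ext ⟨x, y⟩
  simp only [mem_comp, sw, kk, uu, Set.mem_ofPred_eq, Set.mem_singleton_iff, Prod.mk.injEq]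
  constructor
  · rintro ⟨_, ⟨h1, rfl⟩, w, h2, h3, rfl⟩
    rcases h2 with ⟨h2, h4, rfl⟩ | ⟨h2, rfl⟩
    · left
      refine ⟨h1, fun h => h4 (by rw [h]; simp), by simp⟩
    · right
      exact ⟨by rw [← h2]; simp, rfl⟩
  · rintro (⟨h1, h2, rfl⟩ | ⟨rfl, rfl⟩)
    · refine ⟨_, ⟨h1, rfl⟩, _, Or.inl ⟨hm _ h1, fun h => h2 (by rw [← h]; simp), rfl⟩,
        hm _ h1, by simp⟩
    · exact ⟨_, ⟨hm _ hi, rfl⟩, j, Or.inr ⟨by simp, rfl⟩, hj, rfl⟩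

lemma idA_kk_idA {A : Finset X} {v i j : X} (hi : i ∈ A) (hj : j ∈ A) :
    idA A ○ (kk A v i j ○ idA A) = kk A v i j := by
  ext ⟨x, y⟩
  simp only [mem_comp, idA, kk, uu, Set.mem_ofPred_eq, Set.mem_singleton_iff, Prod.mk.injEq]
  grind

lemma kk_two {A : Finset X} {z i j : X} (hzj : z ≠ j) :
    kk A z i j ○ kk A j z i = idA ((A.erase z).erase j) := by
  ext ⟨x, y⟩
  simp only [mem_comp, idA, kk, uu, Set.mem_ofPred_eq, Set.mem_singleton_iff, Prod.mk.injEq,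
    Finset.mem_erase]
  grind

lemma idA_kill {A B : Finset X} {z j v : X} (hBA : B ⊆ A) (hz : z ∉ B) :
    idA B ○ kk A v z j = idA (B.erase v) := by
  ext ⟨x, y⟩
  simp only [mem_comp, idA, kk, uu, Set.mem_ofPred_eq, Set.mem_singleton_iff, Prod.mk.injEq,
    Finset.mem_erase]
  grind

lemma kk_restrict {A B : Finset X} {z v i j : X} (hBA : B ⊆ A) (hz : z ∉ B) (hi : i ∈ B)
    (hiv : i ≠ v) : idA (B.erase v) ○ kk A z i j = kk B v i j := by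
  ext ⟨x, y⟩
  simp only [mem_comp, idA, kk, uu, Set.mem_ofPred_eq, Set.mem_singleton_iff, Prod.mk.injEq,
    Finset.mem_erase]
  grind

/-- `G` is a bipartite graph from `P` to `Q`. -/
def Bip (P Q : Set X) (G : SetRel X X) : Prop := ∀ x y, (x, y) ∈ G → x ∈ P ∧ y ∈ Q

lemma uu_idem {A : Finset X} {z : X} {P Q : Set X} {G : SetRel X X} (hG : Bip P Q G)
    (hP : ∀ x ∈ P, x ∈ A ∧ x ≠ z ∧ x ∉ Q) :
    uu A z G ○ uu A z G = uu A z G := by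
  ext ⟨x, y⟩
  simp only [mem_comp, uu, Set.mem_ofPred_eq]
  unfold Bip at hG
  constructor
  · rintro ⟨w, h1 | h1, h2 | h2⟩ <;> grind
  · rintro (h | h)
    · exact ⟨x, Or.inl ⟨h.1, h.2.1, rfl⟩, Or.inl h⟩
    · exact ⟨x, Or.inl ⟨(hP _ (hG _ _ h).1).1, (hP _ (hG _ _ h).1).2.1, rfl⟩, Or.inr h⟩

lemma uu_mul {A : Finset X} {z : X} {P Q : Set X} {G G' : SetRel X X} (hG : Bip P Q G)
    (hG' : Bip P Q G') (hP : ∀ x ∈ P, x ∈ A ∧ x ≠ z ∧ x ∉ Q) (hQ : ∀ x ∈ Q, x ∈ A ∧ x ≠ z) :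
    uu A z G ○ uu A z G' = uu A z (G ∪ G') := by
  ext ⟨x, y⟩
  simp only [mem_comp, uu, Set.mem_ofPred_eq, Set.mem_union]
  unfold Bip at hG hG'
  constructor
  · rintro ⟨w, h1 | h1, h2 | h2⟩ <;> grind
  · rintro (h | h | h)
    · exact ⟨x, Or.inl ⟨h.1, h.2.1, rfl⟩, Or.inl h⟩
    · exact ⟨y, Or.inr h, Or.inl ⟨(hQ _ (hG _ _ h).2).1, (hQ _ (hG _ _ h).2).2, rfl⟩⟩
    · exact ⟨x, Or.inl ⟨(hP _ (hG' _ _ h).1).1, (hP _ (hG' _ _ h).1).2.1, rfl⟩, Or.inr h⟩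

/-- routing two nodes of `B` through a bipartite graph -/
lemma route {A B : Finset X} {z n₁ n₂ a b c d : X} {P Q : Set X} {G : SetRel X X}
    (hBA : B ⊆ A) (hz : z ∉ B) (hG : Bip P Q G)
    (hP : ∀ x ∈ P, x ∈ A ∧ x ≠ z ∧ x ∉ Q) (hQ : ∀ x ∈ Q, x ∈ A ∧ x ≠ z)
    (hPB : ∀ x ∈ P, x ∉ B) (hQB : ∀ x ∈ Q, x ∉ B)
    (h1 : n₁ ∈ B) (h2 : n₂ ∈ B) (h12 : n₁ ≠ n₂) (ha : a ∈ P) (hb : b ∈ P) (hab : a ≠ b)
    (hc : c ∈ Q) (hd : d ∈ Q) (hcd : c ≠ d) (σ : Equiv.Perm X)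
    (hσ : (σ = 1 ∧ (a, c) ∈ G ∧ (b, d) ∈ G ∧ (a, d) ∉ G ∧ (b, c) ∉ G) ∨
      (σ = Equiv.swap n₁ n₂ ∧ (a, c) ∉ G ∧ (b, d) ∉ G ∧ (a, d) ∈ G ∧ (b, c) ∈ G)) :
    (idA B ○ (sw A n₁ a ○ sw A n₂ b)) ○ (uu A z G ○ (sw A c n₁ ○ (sw A d n₂ ○ idA B))) =
      {p | p.1 ∈ B ∧ p.2 = σ p.1} := by
  have hl : idA B ○ (sw A n₁ a ○ sw A n₂ b) =
      {p | (p.1 ∈ B ∧ p.1 ≠ n₁ ∧ p.1 ≠ n₂ ∧ p.2 = p.1) ∨ p = (n₁, a) ∨ p = (n₂, b)} := by
    ext ⟨x, y⟩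
    simp only [mem_comp, idA, sw, Set.mem_ofPred_eq, Equiv.swap_apply_def, Prod.mk.injEq]
    constructor
    · rintro ⟨_, ⟨h1, rfl⟩, _, ⟨h2, rfl⟩, h3, rfl⟩
      grind
    · intro h
      have hx : x ∈ B := by grind
      refine ⟨_, ⟨hx, rfl⟩, _, ⟨hBA hx, rfl⟩, ?_, ?_⟩ <;> grind
  have hr : sw A c n₁ ○ (sw A d n₂ ○ idA B) =
      {p | (p.1 ∈ B ∧ p.1 ≠ n₁ ∧ p.1 ≠ n₂ ∧ p.2 = p.1) ∨ p = (c, n₁) ∨ p = (d, n₂)} := by
    ext ⟨x, y⟩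
    simp only [mem_comp, idA, sw, Set.mem_ofPred_eq, Equiv.swap_apply_def, Prod.mk.injEq]
    constructor
    · rintro ⟨_, ⟨h1, rfl⟩, _, ⟨h2, rfl⟩, h3, rfl⟩
      grind
    · intro h
      have hx : x ∈ A := by grind
      refine ⟨_, ⟨hx, rfl⟩, _, ⟨?_, rfl⟩, ?_, ?_⟩ <;> grind
  rw [hl, hr]
  ext ⟨x, y⟩
  simp only [mem_comp, uu, Set.mem_ofPred_eq, Prod.mk.injEq]
  unfold Bip at hG
  rcases hσ with ⟨rfl, g1, g2, g3, g4⟩ | ⟨rfl, g1, g2, g3, g4⟩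
  · simp only [Equiv.Perm.coe_one, id]
    constructor
    · rintro ⟨u, h1, w, h2, h3⟩
      grind
    · rintro ⟨hx, rfl⟩
      by_cases e1 : y = n₁
      · exact ⟨a, by grind, c, Or.inr g1, by grind⟩
      by_cases e2 : y = n₂
      · exact ⟨b, by grind, d, Or.inr g2, by grind⟩
      exact ⟨y, by grind, y, by grind, by grind⟩
  · simp only [Equiv.swap_apply_def]
    constructor
    · rintro ⟨u, h1, w, h2, h3⟩
      grind
    · rintro ⟨hx, rfl⟩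
      by_cases e1 : x = n₁
      · exact ⟨a, by grind, d, Or.inr g3, by grind⟩
      by_cases e2 : x = n₂
      · exact ⟨b, by grind, c, Or.inr g4, by grind⟩
      exact ⟨x, by grind, x, by grind, by grind⟩

end Vale.Agent.P343
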