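import Vale.Agent.P343.LinRel
import Vale.Agent.P343.Rel

/-! The algebraic core: binary relations are not covered by small monoids of linear relations. -/

namespace Vale.Agent.P343

open SetRel

set_option linter.unusedSectionVars false

variable {V : Type} [AddCommGroup V] [Module F V] [Finite V] {X : Type} [DecidableEq X]

/-- `S` is a multiplicative correspondence that is a function of the linear relation. -/
structure Sys (S : LR V → SetRel X X → Prop) : Prop where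
  mul : ∀ {x a y b}, S x a → S y b → S (x * y) (a ○ b)
  fn : ∀ {x a b}, S x a → S x b → a = b

def Has (S : LR V → SetRel X X → Prop) (b : SetRel X X) : Prop := ∃ x, S x b

lemma Has.mul {S : LR V → SetRel X X → Prop} (hS : Sys S) {a b : SetRel X X} (ha : Has S a)
    (hb : Has S b) : Has S (a ○ b) := by
  obtain ⟨x, hx⟩ := ha
  obtain ⟨y, hy⟩ := hb
  exact ⟨x * y, hS.mul hx hy⟩

structure Good (S : LR V → SetRel X X → Prop) (A : Finset X) : Prop where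
  hsw : ∀ a ∈ A, ∀ b ∈ A, a ≠ b → Has S (sw A a b)
  hkk : ∀ v ∈ A, ∀ i ∈ A, ∀ j ∈ A, v ≠ i → v ≠ j → i ≠ j → Has S (kk A v i j)

/-- Some transposition has all its lifts far from `e`. -/
def Far (S : LR V → SetRel X X → Prop) (A : Finset X) (e : LR V) (μ : ℕ) : Prop :=
  ∃ a ∈ A, ∃ b ∈ A, a ≠ b ∧ ∀ g, S g (sw A a b) → μ ≤ dist e g

def Claim (V : Type) [AddCommGroup V] [Module F V] [Finite V] (X : Type) [DecidableEq X]
    (h μ : ℕ) : Prop :=
  ∀ (S : LR V → SetRel X X → Prop) (A : Finset X) (e : LR V), Sys S → Good S A → A.card = h →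
    S e (idA A) → e * e = e → Far S A e μ

lemma Sys.pow_mul {S : LR V → SetRel X X → Prop} (hS : Sys S) {x y : LR V} {a b : SetRel X X}
    (hx : S x a) (hy : S y b) (hab : a ○ b = b) (n : ℕ) : S (x ^ n * y) b := by
  induction n with
  | zero => simpa using hy
  | succ n ih =>
    rw [pow_succ', mul_assoc, ← hab]
    exact hS.mul hx ih

lemma Sys.pow {S : LR V → SetRel X X → Prop} (hS : Sys S) {x : LR V} {a : SetRel X X}
    (hx : S x a) (ha : a ○ a = a) (n : ℕ) : S (x ^ (n + 1)) a := by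
  rw [pow_succ]; exact hS.pow_mul hx hx ha n

/-- an idempotent lift below a given idempotent -/
lemma Sys.below {S : LR V → SetRel X X → Prop} (hS : Sys S) {e x : LR V} {a : SetRel X X}
    (he : e * e = e) (hx : S (e * (x * e)) a) (ha : a ○ a = a) :
    ∃ m, S ((e * (x * e)) ^ (m + 1)) a ∧
      (e * (x * e)) ^ (m + 1) * (e * (x * e)) ^ (m + 1) = (e * (x * e)) ^ (m + 1) ∧
      e * (e * (x * e)) ^ (m + 1) = (e * (x * e)) ^ (m + 1) ∧
      (e * (x * e)) ^ (m + 1) * e = (e * (x * e)) ^ (m + 1) := by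
  obtain ⟨m, hm⟩ := exists_pow_idem (e * (x * e))
  refine ⟨m, hS.pow hx ha m, hm, ?_, ?_⟩
  · rw [pow_succ', ← mul_assoc, ← mul_assoc e e, he]
  · rw [pow_succ, mul_assoc, mul_assoc e, mul_assoc x, he]

/-- an idempotent lift of least rank; all lifts in its local monoid are units -/
lemma Sys.generic {S : LR V → SetRel X X → Prop} (hS : Sys S) {a : SetRel X X} (h : Has S a)
    (ha : a ○ a = a) : ∃ e, S e a ∧ e * e = e ∧
      ∀ x, S (e * (x * e)) a → ∃ m, (e * (x * e)) ^ m * (e * (x * e)) = e := by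
  obtain ⟨x, hx, hmin⟩ := (measure (rk (V := V))).wf.has_min {x | S x a} h
  obtain ⟨m, hm⟩ := exists_pow_idem x
  refine ⟨x ^ (m + 1), hS.pow hx ha m, hm, fun y hy => ?_⟩
  obtain ⟨k, k1, k2, k3, k4⟩ := hS.below hm hy ha
  refine ⟨k, ?_⟩
  rw [← pow_succ]
  have h1 := dist_idem hm k2 k3 k4
  have h2 : ¬ _ < rk x := hmin _ k1
  have h3 : rk (x ^ (m + 1)) ≤ rk x := by rw [pow_succ']; exact rk_mul_left _ _
  exact (eq_of_dist (by omega)).symm

lemma claim_base : Claim V X 2 1 := by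
  intro S A e hS _ hA he _
  obtain ⟨a, b, hab, rfl⟩ := Finset.card_eq_two.mp hA
  refine ⟨a, by simp, b, by simp, hab, fun g hg => ?_⟩
  by_contra hlt
  have : e = g := eq_of_dist (by omega)
  subst this
  exact sw_ne_idA (by simp) hab (hS.fn hg he)

/-- one step down the chain of idempotents -/
lemma chain_step {S : LR V → SetRel X X → Prop} (hS : Sys S) {A B : Finset X} (hA : Good S A)
    {z : X} (hzA : z ∈ A) {P Q : Set X} (hBA : B ⊆ A) (hz : z ∉ B)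
    (hP : ∀ x ∈ P, x ∈ A ∧ x ≠ z ∧ x ∉ Q) (hQ : ∀ x ∈ Q, x ∈ A ∧ x ≠ z)
    (hPB : ∀ x ∈ P, x ∉ B) (hQB : ∀ x ∈ Q, x ∉ B) {e : LR V} (he : S e (idA B))
    (hu : ∀ x, S (e * (x * e)) (idA B) → ∃ m, (e * (x * e)) ^ m * (e * (x * e)) = e)
    {μ : ℕ} (hfar : Far S B e μ) {G : SetRel X X} (hG : Bip P Q G) {η : LR V}
    (hη : S η (uu A z G)) (hηη : η * η = η) {a b c d : X} (ha : a ∈ P) (hb : b ∈ P)
    (hab : a ≠ b) (hc : c ∈ Q) (hd : d ∈ Q) (hcd : c ≠ d) (g1 : (a, c) ∉ G) (g2 : (b, d) ∉ G)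
    (g3 : (a, d) ∉ G) (g4 : (b, c) ∉ G) :
    ∃ G' η', Bip P Q G' ∧ (∀ p ∈ G', p ∈ G ∨ ((p.1 = a ∨ p.1 = b) ∧ (p.2 = c ∨ p.2 = d))) ∧
      S η' (uu A z G') ∧ η' * η' = η' ∧ 6 * rk η' + μ ≤ 6 * rk η := by
  obtain ⟨n₁, h1, n₂, h2, h12, hfar⟩ := hfar
  have key : ∀ c ∈ Q, ∀ d ∈ Q, ∃ η', Bip P Q (G ∪ ({(a, c)} ∪ {(b, d)})) ∧
      S η' (uu A z (G ∪ ({(a, c)} ∪ {(b, d)}))) ∧ η' * η' = η' ∧
        dist η η' + 3 * rk η' ≤ 3 * rk η := by
    intro c hc d hd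
    have b1 : Bip P Q {(a, c)} := by rintro x y ⟨rfl, rfl⟩; exact ⟨ha, hc⟩
    have b2 : Bip P Q {(b, d)} := by rintro x y ⟨rfl, rfl⟩; exact ⟨hb, hd⟩
    have b3 : Bip P Q ({(a, c)} ∪ {(b, d)}) := fun x y h => h.elim (b1 x y) (b2 x y)
    have b4 : Bip P Q (G ∪ ({(a, c)} ∪ {(b, d)})) := fun x y h => h.elim (hG x y) (b3 x y)
    have b5 : Bip P Q (({(a, c)} ∪ {(b, d)}) ∪ G) := fun x y h => h.elim (b3 x y) (hG x y)
    obtain ⟨x₁, hx₁⟩ := hA.hkk z hzA a (hP a ha).1 c (hQ c hc).1 (hP a ha).2.1.symm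
      (hQ c hc).2.symm (fun h => (hP a ha).2.2 (h ▸ hc))
    obtain ⟨x₂, hx₂⟩ := hA.hkk z hzA b (hP b hb).1 d (hQ d hd).1 (hP b hb).2.1.symm
      (hQ d hd).2.symm (fun h => (hP b hb).2.2 (h ▸ hd))
    have h3 := hS.mul hη (hS.mul (hS.mul hx₁ hx₂) hη)
    unfold kk at h3
    rw [uu_mul b1 b2 hP hQ, uu_mul b3 hG hP hQ, uu_mul hG b5 hP hQ,
      Set.union_comm _ G, ← Set.union_assoc, Set.union_self] at h3
    obtain ⟨m, m1, m2, m3, m4⟩ := hS.below hηη h3 (uu_idem b4 hP)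
    exact ⟨_, b4, m1, m2, dist_idem hηη m2 m3 m4⟩
  obtain ⟨η₁, p1, p2, p3, p4⟩ := key c hc d hd
  obtain ⟨η₂, q1, q2, q3, q4⟩ := key d hd c hc
  obtain ⟨s₁, hs₁⟩ := hA.hsw n₁ (hBA h1) a (hP a ha).1 (fun h => hPB a ha (h ▸ h1))
  obtain ⟨s₂, hs₂⟩ := hA.hsw n₂ (hBA h2) b (hP b hb).1 (fun h => hPB b hb (h ▸ h2))
  obtain ⟨s₃, hs₃⟩ := hA.hsw c (hQ c hc).1 n₁ (hBA h1) (fun h => hQB c hc (h ▸ h1))
  obtain ⟨s₄, hs₄⟩ := hA.hsw d (hQ d hd).1 n₂ (hBA h2) (fun h => hQB d hd (h ▸ h2))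
  have hac : a ≠ c := fun h => (hP a ha).2.2 (h ▸ hc)
  have r1 := hS.mul (hS.mul he (hS.mul hs₁ hs₂)) (hS.mul p2 (hS.mul hs₃ (hS.mul hs₄ he)))
  have r2 := hS.mul (hS.mul he (hS.mul hs₁ hs₂)) (hS.mul q2 (hS.mul hs₃ (hS.mul hs₄ he)))
  rw [route hBA hz p1 hP hQ hPB hQB h1 h2 h12 ha hb hab hc hd hcd 1
    (Or.inl ⟨rfl, by simp, by simp, by simp [g3, hab, hcd.symm], by simp [g4, hab.symm, hcd]⟩)]
    at r1
  rw [route hBA hz q1 hP hQ hPB hQB h1 h2 h12 ha hb hab hc hd hcd (Equiv.swap n₁ n₂)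
    (Or.inr ⟨rfl, by simp [g1, hab, hcd], by simp [g2, hab.symm, hcd.symm], by simp, by simp⟩)]
    at r2
  have e1 : e * (s₁ * s₂) * (η₁ * (s₃ * (s₄ * e))) = e * ((s₁ * s₂ * η₁ * s₃ * s₄) * e) := by
    simp only [mul_assoc]
  have r1' : S (e * ((s₁ * s₂ * η₁ * s₃ * s₄) * e)) (idA B) := by rw [← e1]; exact r1
  obtain ⟨m, hm⟩ := hu _ r1'
  have r3 := hfar _ (hS.pow_mul r1' r2 (idA_sw B n₁ n₂) m)
  have r4 : dist e ((e * ((s₁ * s₂ * η₁ * s₃ * s₄) * e)) ^ m *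
      (e * (s₁ * s₂) * (η₂ * (s₃ * (s₄ * e))))) ≤ dist η₁ η₂ := by
    conv_lhs => arg 1; rw [← hm]
    refine (dist_mul_left _ _ _).trans ?_
    rw [← e1]
    exact (dist_mul_left _ _ _).trans (dist_mul_right _ _ _)
  have r5 := dist_triangle η₁ η η₂
  rw [dist_comm η₁ η] at r5
  by_cases hcase : 6 * rk η₁ + μ ≤ 6 * rk η
  · refine ⟨_, η₁, p1, ?_, p2, p3, hcase⟩
    rintro p (h | rfl | rfl) <;> simp [*]
  · refine ⟨_, η₂, q1, ?_, q2, q3, by omega⟩
    rintro p (h | rfl | rfl) <;> simp [*]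

/-- the subsemigroup generated by a family of pairs -/
inductive Gen (T : LR V → SetRel X X → Prop) : LR V → SetRel X X → Prop
  | base {x a} : T x a → Gen T x a
  | mul {x a y b} : Gen T x a → Gen T y b → Gen T (x * y) (a ○ b)

lemma Gen.sub {S T : LR V → SetRel X X → Prop} (hS : Sys S) (h : ∀ x a, T x a → S x a)
    {x : LR V} {a : SetRel X X} (hx : Gen T x a) : S x a := by
  induction hx with
  | base h' => exact h _ _ h'
  | mul _ _ h1 h2 => exact hS.mul h1 h2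

lemma Gen.sys {S T : LR V → SetRel X X → Prop} (hS : Sys S) (h : ∀ x a, T x a → S x a) :
    Sys (Gen T) :=
  ⟨Gen.mul, fun h1 h2 => hS.fn (h1.sub hS h) (h2.sub hS h)⟩

lemma Gen.inv {T : LR V → SetRel X X → Prop} {Φ C : Submodule F V}
    (h : ∀ x a, T x a → Inv Φ C x) {x : LR V} {a : SetRel X X} (hx : Gen T x a) : Inv Φ C x := by
  induction hx with
  | base h' => exact h _ _ h'
  | mul _ _ h1 h2 => exact h1.mul h2

/-- star transpositions and one special element give everything -/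
lemma good_of_star {S : LR V → SetRel X X → Prop} (hS : Sys S) {A : Finset X} {a₀ z i₀ j₀ : X}
    (ha₀ : a₀ ∈ A) (hz : z ∈ A) (hi : i₀ ∈ A) (hj : j₀ ∈ A) (h1 : z ≠ i₀) (h2 : z ≠ j₀)
    (h3 : i₀ ≠ j₀) (hstar : ∀ b ∈ A, a₀ ≠ b → Has S (sw A a₀ b)) (hk : Has S (kk A z i₀ j₀)) :
    Good S A := by
  have hsw : ∀ a ∈ A, ∀ b ∈ A, a ≠ b → Has S (sw A a b) := by
    intro a ha b hb hab
    by_cases e1 : a₀ = a
    · subst e1; exact hstar b hb hab
    by_cases e2 : a₀ = b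
    · subst e2; rw [sw_comm]; exact hstar a ha e1
    rw [← sw_star ha₀ ha hb e1 e2 hab]
    exact (hstar a ha e1).mul hS ((hstar b hb e2).mul hS (hstar a ha e1))
  have hm : ∀ a ∈ A, ∀ b ∈ A, ∀ x, x ∈ A → Equiv.swap a b x ∈ A := by
    intro a ha b hb x hx; rw [Equiv.swap_apply_def]; grind
  have conj : ∀ a ∈ A, ∀ b ∈ A, ∀ v, ∀ i ∈ A, ∀ j ∈ A, Has S (kk A v i j) →
      Has S (kk A (Equiv.swap a b v) (Equiv.swap a b i) (Equiv.swap a b j)) := by
    intro a ha b hb v i hi j hj h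
    by_cases hab : a = b
    · subst hab; simpa using h
    rw [← kk_conj ha hb hi hj]
    exact (hsw a ha b hb hab).mul hS (h.mul hS (hsw a ha b hb hab))
  refine ⟨hsw, fun v hv i hi' j hj' k1 k2 k3 => ?_⟩
  have c1 := conj z hz v hv z i₀ hi j₀ hj hk
  have m1 := hm z hz v hv i₀ hi
  have m2 := hm z hz v hv j₀ hj
  have n1 : v ≠ Equiv.swap z v i₀ := by rw [Equiv.swap_apply_def]; grind
  have n2 : v ≠ Equiv.swap z v j₀ := by rw [Equiv.swap_apply_def]; grind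
  have n3 : Equiv.swap z v i₀ ≠ Equiv.swap z v j₀ := by simpa using h3
  rw [Equiv.swap_apply_left] at c1
  generalize Equiv.swap z v i₀ = i₁ at *
  generalize Equiv.swap z v j₀ = j₁ at *
  have c2 := conj i₁ m1 i hi' v i₁ m1 j₁ m2 c1
  have m3 := hm i₁ m1 i hi' j₁ m2
  have n4 : v ≠ Equiv.swap i₁ i j₁ := by rw [Equiv.swap_apply_def]; grind
  have n5 : i ≠ Equiv.swap i₁ i j₁ := by rw [Equiv.swap_apply_def]; grind
  rw [Equiv.swap_apply_left, Equiv.swap_apply_of_ne_of_ne n1 k1] at c2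
  generalize Equiv.swap i₁ i j₁ = j₂ at *
  have c3 := conj j₂ m3 j hj' v i hi' j₂ m3 c2
  rwa [Equiv.swap_apply_left, Equiv.swap_apply_of_ne_of_ne n4 k2,
    Equiv.swap_apply_of_ne_of_ne n5 k3] at c3

lemma has_idA {S : LR V → SetRel X X → Prop} (hS : Sys S) {A : Finset X} (hA : Good S A)
    {z i j : X} (hz : z ∈ A) (hi : i ∈ A) (hj : j ∈ A) (h1 : z ≠ i) (h2 : z ≠ j) (h3 : i ≠ j)
    (B : Finset X) (hB : B ⊆ (A.erase z).erase j) : Has S (idA B) := by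
  induction hn : ((A.erase z).erase j \ B).card generalizing B with
  | zero =>
    have : B = (A.erase z).erase j :=
      Finset.Subset.antisymm hB (Finset.sdiff_eq_empty_iff_subset.mp (Finset.card_eq_zero.mp hn))
    rw [this, ← kk_two (i := i) h2]
    exact (hA.hkk z hz i hi j hj h1 h2 h3).mul hS (hA.hkk j hj z hz i hi h2.symm h3.symm h1)
  | succ n ih =>
    obtain ⟨v, hv⟩ : ((A.erase z).erase j \ B).Nonempty := Finset.card_pos.mp (by omega)
    have hv' := hv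
    simp only [Finset.mem_sdiff, Finset.mem_erase] at hv'
    have hsub : insert v B ⊆ (A.erase z).erase j :=
      Finset.insert_subset (Finset.mem_sdiff.mp hv).1 hB
    have := ih (insert v B) hsub (by
      rw [Finset.sdiff_insert, Finset.card_erase_of_mem hv, hn]; rfl)
    rw [← Finset.erase_insert hv'.2, ← idA_kill (A := A) (z := z) (j := j)
      (hsub.trans ((Finset.erase_subset _ _).trans (Finset.erase_subset _ _)))
      (fun h => by simpa using hsub h)]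
    exact this.mul hS (hA.hkk v hv'.1.2.2 z hz j hj hv'.1.2.1 hv'.1.1 h2)

lemma good_sub {S : LR V → SetRel X X → Prop} (hS : Sys S) {A : Finset X} (hA : Good S A)
    {z i j : X} (hz : z ∈ A) (hi : i ∈ A) (hj : j ∈ A) (h1 : z ≠ i) (h2 : z ≠ j) (h3 : i ≠ j)
    (B : Finset X) (hB : B ⊆ (A.erase z).erase j) : Good S B := by
  have hBA : B ⊆ A := hB.trans ((Finset.erase_subset _ _).trans (Finset.erase_subset _ _))
  have hzB : z ∉ B := fun h => by simpa using hB h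
  refine ⟨fun a ha b hb hab => ?_, fun v hv a ha b hb k1 k2 k3 => ?_⟩
  · rw [← sw_restrict hBA]
    exact (has_idA hS hA hz hi hj h1 h2 h3 B hB).mul hS (hA.hsw a (hBA ha) b (hBA hb) hab)
  · rw [← kk_restrict hBA hzB ha k1.symm]
    exact (has_idA hS hA hz hi hj h1 h2 h3 _ ((Finset.erase_subset _ _).trans hB)).mul hS
      (hA.hkk z hz a (hBA ha) b (hBA hb) (fun h => hzB (h ▸ ha)) (fun h => hzB (h ▸ hb)) k3)

end Vale.Agent.P343
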