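import Mathlib

namespace Vale.Agent.P343

/-- Tape symbols: left endmarker, input letters, right endmarker. -/
inductive Sym (σ : Type) : Type
  | lend : Sym σ
  | letter : σ → Sym σ
  | rend : Sym σ

/-- Head moves. -/
inductive Move : Type
  | left : Move
  | stay : Move
  | right : Move

/-- New head position after a move. -/
def Move.apply : Move → ℕ → ℕ
  | .left, i => i - 1
  | .stay, i => i
  | .right, i => i + 1

/-- The symbol in cell `i` of the tape holding `w` between the endmarkers: cell `0` holds the left
endmarker, cells `1, …, |w|` hold `w`, and cell `|w| + 1` holds the right endmarker. -/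
def tape {σ : Type} (w : List σ) : ℕ → Sym σ
  | 0 => .lend
  | i + 1 => match w[i]? with
    | some a => .letter a
    | none => .rend

/-- A two-way nondeterministic finite automaton with `n` states over the alphabet `σ`. -/
structure TwoNFA (σ : Type) (n : ℕ) : Type where
  start : Fin n
  accept : Set (Fin n)
  δ : Fin n → Sym σ → Set (Fin n × Move)
  no_left : ∀ q q', (q', Move.left) ∉ δ q .lend
  no_right : ∀ q q', (q', Move.right) ∉ δ q .rend

namespace TwoNFA

variable {σ : Type} {n : ℕ}

/-- One step between configurations (state, head position) on input `w`. -/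
def Step (A : TwoNFA σ n) (w : List σ) (c c' : Fin n × ℕ) : Prop :=
  ∃ mv : Move, (c'.1, mv) ∈ A.δ c.1 (tape w c.2) ∧ c'.2 = mv.apply c.2

/-- The accepted words: some finite computation from the start reaches an accepting state. -/
def lang (A : TwoNFA σ n) : Set (List σ) :=
  {w | ∃ c, Relation.ReflTransGen (A.Step w) (A.start, 0) c ∧ c.1 ∈ A.accept}

/-- Deterministic: at most one transition for each state and symbol. -/
def Det (A : TwoNFA σ n) : Prop := ∀ q s, (A.δ q s).Subsingleton

/-- One-way: the head never moves left. -/
def OneWay (A : TwoNFA σ n) : Prop := ∀ q s q', (q', Move.left) ∉ A.δ q s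

end TwoNFA

end Vale.Agent.P343
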