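import Mathlib

/-! Dimension bookkeeping for subspaces of finite vector spaces over the two-element field. -/

namespace Vale.Agent.P343

open Module Submodule

set_option linter.unusedSectionVars false

abbrev F := ZMod 2

section
variable {W W' : Type} [AddCommGroup W] [Module F W] [Finite W]
  [AddCommGroup W'] [Module F W'] [Finite W']

/-- dimension of a subspace -/
noncomputable def fr (U : Submodule F W) : ℕ := finrank F U

lemma fr_mono {A B : Submodule F W} (h : A ≤ B) : fr A ≤ fr B := Submodule.finrank_mono h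

lemma fr_sup_inf (A B : Submodule F W) : fr (A ⊔ B) + fr (A ⊓ B) = fr A + fr B :=
  Submodule.finrank_sup_add_finrank_inf_eq A B

lemma fr_eq {A B : Submodule F W} (h : A ≤ B) (h' : fr B ≤ fr A) : A = B :=
  Submodule.eq_of_le_of_finrank_le h h'

lemma fr_le_top (A : Submodule F W) : fr A ≤ finrank F W := Submodule.finrank_le A

lemma fr_map (f : W →ₗ[F] W') (B : Submodule F W) :
    fr (B.map f) + fr (B ⊓ LinearMap.ker f) = fr B := by
  have h := LinearMap.finrank_range_add_finrank_ker (f.domRestrict B)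
  rw [LinearMap.range_domRestrict] at h
  have h2 : fr (B ⊓ LinearMap.ker f) = finrank F (LinearMap.ker (f.domRestrict B)) := by
    rw [LinearMap.ker_domRestrict]
    unfold fr
    rw [← Submodule.finrank_map_subtype_eq B, Submodule.map_comap_subtype]
  unfold fr at *
  omega

lemma fr_comap (f : W →ₗ[F] W') (B : Submodule F W') :
    fr (B.comap f) = fr (B ⊓ LinearMap.range f) + fr (LinearMap.ker f) := by
  have h := fr_map f (B.comap f)
  rw [Submodule.map_comap_eq, inf_comm (LinearMap.range f),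
    inf_eq_right.mpr (LinearMap.ker_le_comap f)] at h
  omega

/-- `A ≤ B` with codimension at most `n`. -/
def Cod (A B : Submodule F W) (n : ℕ) : Prop := A ≤ B ∧ fr B ≤ fr A + n

lemma Cod.inf {A B : Submodule F W} {n : ℕ} (h : Cod A B n) (C : Submodule F W) :
    Cod (A ⊓ C) (B ⊓ C) n := by
  refine ⟨inf_le_inf_right C h.1, ?_⟩
  have h1 := fr_sup_inf A C
  have h2 := fr_sup_inf B C
  have h3 : fr (A ⊔ C) ≤ fr (B ⊔ C) := fr_mono (sup_le_sup_right h.1 C)
  have := h.2
  omega

lemma Cod.sup {A B : Submodule F W} {n : ℕ} (h : Cod A B n) (C : Submodule F W) :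
    Cod (A ⊔ C) (B ⊔ C) n := by
  refine ⟨sup_le_sup_right h.1 C, ?_⟩
  have h1 := fr_sup_inf A C
  have h2 := fr_sup_inf B C
  have h3 : fr (A ⊓ C) ≤ fr (B ⊓ C) := fr_mono (inf_le_inf_right C h.1)
  have := h.2
  omega

lemma Cod.map {A B : Submodule F W} {n : ℕ} (h : Cod A B n) (f : W →ₗ[F] W') :
    Cod (A.map f) (B.map f) n := by
  refine ⟨Submodule.map_mono h.1, ?_⟩
  have h1 := fr_map f A
  have h2 := fr_map f B
  have h3 : fr (A ⊓ LinearMap.ker f) ≤ fr (B ⊓ LinearMap.ker f) :=
    fr_mono (inf_le_inf_right _ h.1)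
  have := h.2
  omega

lemma Cod.comap {A B : Submodule F W'} {n : ℕ} (h : Cod A B n) (f : W →ₗ[F] W') :
    Cod (A.comap f) (B.comap f) n := by
  refine ⟨Submodule.comap_mono h.1, ?_⟩
  have h1 := fr_comap f A
  have h2 := fr_comap f B
  have := (h.inf (LinearMap.range f)).2
  omega

lemma Cod.trans {A B C : Submodule F W} {n m : ℕ} (h : Cod A B n) (h' : Cod B C m) :
    Cod A C (n + m) := ⟨h.1.trans h'.1, by have := h.2; have := h'.2; omega⟩

lemma Cod.refl (A : Submodule F W) : Cod A A 0 := ⟨le_rfl, le_rfl⟩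

end

/-- A pigeonhole principle for transitive relations with interpolation. -/
lemma exists_loop {α : Type} [Finite α] (r : α → α → Prop) (P : α → Prop) (w : α)
    (htr : ∀ a b c, r a b → r b c → r a c)
    (hint : ∀ a, r a w → ∃ f, P f ∧ r a f ∧ r f w) (u : α) (hu : r u w) :
    ∃ f, P f ∧ r u f ∧ r f f ∧ r f w := by
  by_contra hcon
  push Not at hcon
  let s : α → α → Prop := fun b a => r a b ∧ ¬ r b b
  have : IsTrans α s := ⟨fun a b c h1 h2 => ⟨htr _ _ _ h2.1 h1.1, h1.2⟩⟩
  have : Std.Irrefl s := ⟨fun a h => h.2 h.1⟩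
  have hwf := Finite.wellFounded_of_trans_of_irrefl s
  obtain ⟨f, hf1, hf2, hf3⟩ := hint u hu
  obtain ⟨g, ⟨hg1, hg2, hg3⟩, hmin⟩ := hwf.has_min {f | P f ∧ r u f ∧ r f w} ⟨f, hf1, hf2, hf3⟩
  obtain ⟨g', h1, h2, h3⟩ := hint g hg3
  exact hmin g' ⟨h1, htr _ _ _ hg2 h2, h3⟩ ⟨h2, fun h => hcon g' h1 (htr _ _ _ hg2 h2) h h3⟩

/-- In a finite monoid every element has an idempotent positive power. -/
lemma exists_pow_idem {M : Type} [Monoid M] [Finite M] (x : M) :
    ∃ m, x ^ (m + 1) * x ^ (m + 1) = x ^ (m + 1) := by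
  obtain ⟨i, j, hij, h⟩ := Finite.exists_ne_map_eq_of_infinite (fun n : ℕ => x ^ (n + 1))
  wlog hlt : i < j generalizing i j
  · exact this j i hij.symm h.symm (by omega)
  obtain ⟨k, rfl⟩ := Nat.exists_eq_add_of_lt hlt
  have key : ∀ t a, x ^ (i + 1 + a + t * (k + 1)) = x ^ (i + 1 + a) := by
    intro t
    induction t with
    | zero => simp
    | succ t ih =>
      intro a
      have : i + 1 + a + (t + 1) * (k + 1) = (i + k + 1 + 1) + (a + t * (k + 1)) := by ring
      rw [this, pow_add]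
      rw [← h, ← pow_add, ← ih a]
      congr 1
      ring
  refine ⟨(i + 1) * (k + 1) - 1, ?_⟩
  have h1 : (i + 1) * (k + 1) - 1 + 1 = (i + 1) * (k + 1) := by
    have : 0 < (i + 1) * (k + 1) := by positivity
    omega
  rw [h1, ← pow_add]
  have := key (i + 1) ((i + 1) * k)
  rw [show i + 1 + (i + 1) * k = (i + 1) * (k + 1) by ring] at this
  exact this

end Vale.Agent.P343
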