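import Vale.Agent.P343.Dim

/-! The monoid of linear relations on a finite vector space, its rank and its metric. -/

namespace Vale.Agent.P343

open Module Submodule

set_option linter.unusedSectionVars false

/-- A linear relation on `V`. -/
@[ext] structure LR (V : Type) [AddCommGroup V] [Module F V] where
  s : Submodule F (V × V)

variable {V : Type} [AddCommGroup V] [Module F V] [Finite V]

def p12 (V : Type) [AddCommGroup V] [Module F V] : V × V × V →ₗ[F] V × V :=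
  (LinearMap.fst F V (V × V)).prod ((LinearMap.fst F V V).comp (LinearMap.snd F V (V × V)))

def p13 (V : Type) [AddCommGroup V] [Module F V] : V × V × V →ₗ[F] V × V :=
  (LinearMap.fst F V (V × V)).prod ((LinearMap.snd F V V).comp (LinearMap.snd F V (V × V)))

def comp (R S : Submodule F (V × V)) : Submodule F (V × V) :=
  (R.comap (p12 V) ⊓ S.comap (LinearMap.snd F V (V × V))).map (p13 V)

lemma mem_comp {R S : Submodule F (V × V)} {u w : V} :
    (u, w) ∈ comp R S ↔ ∃ v, (u, v) ∈ R ∧ (v, w) ∈ S := by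
  simp only [comp, Submodule.mem_map, Submodule.mem_inf, Submodule.mem_comap, p12, p13]
  constructor
  · rintro ⟨⟨a, b, c⟩, ⟨h1, h2⟩, h3⟩
    simp at h1 h2 h3
    obtain ⟨rfl, rfl⟩ := h3
    exact ⟨b, h1, h2⟩
  · rintro ⟨v, h1, h2⟩
    exact ⟨(u, v, w), ⟨by simpa using h1, by simpa using h2⟩, by simp⟩

def diag (V : Type) [AddCommGroup V] [Module F V] : V →ₗ[F] V × V :=
  LinearMap.id.prod LinearMap.id

def diff (V : Type) [AddCommGroup V] [Module F V] : V × V →ₗ[F] V :=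
  LinearMap.fst F V V - LinearMap.snd F V V

instance : Monoid (LR V) where
  mul R S := ⟨comp R.s S.s⟩
  one := ⟨LinearMap.range (diag V)⟩
  mul_assoc R S T := by
    ext ⟨u, w⟩
    change (u, w) ∈ comp (comp R.s S.s) T.s ↔ (u, w) ∈ comp R.s (comp S.s T.s)
    simp only [mem_comp]
    constructor
    · rintro ⟨v, ⟨v', h1, h2⟩, h3⟩; exact ⟨v', h1, v, h2, h3⟩
    · rintro ⟨v, h1, v', h2, h3⟩; exact ⟨v', ⟨v, h1, h2⟩, h3⟩
  one_mul R := by
    ext ⟨u, w⟩
    change (u, w) ∈ comp (LinearMap.range (diag V)) R.s ↔ _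
    simp [mem_comp, diag]
  mul_one R := by
    ext ⟨u, w⟩
    change (u, w) ∈ comp R.s (LinearMap.range (diag V)) ↔ _
    simp [mem_comp, diag]

lemma mem_mul {R S : LR V} {u w : V} :
    (u, w) ∈ (R * S).s ↔ ∃ v, (u, v) ∈ R.s ∧ (v, w) ∈ S.s := mem_comp

lemma mem_one {u w : V} : (u, w) ∈ (1 : LR V).s ↔ u = w := by
  change (u, w) ∈ LinearMap.range (diag V) ↔ _
  simp [diag]

instance : Finite (LR V) :=
  Finite.of_injective (fun R : LR V => (R.s : Set (V × V)))
    (fun _ _ h => LR.ext (SetLike.coe_injective h))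

/-- domain -/
def dom (R : Submodule F (V × V)) : Submodule F V := R.map (LinearMap.fst F V V)
/-- image -/
def img (R : Submodule F (V × V)) : Submodule F V := R.map (LinearMap.snd F V V)
/-- kernel -/
def ker (R : Submodule F (V × V)) : Submodule F V := R.comap (LinearMap.inl F V V)
/-- indeterminacy -/
def ind (R : Submodule F (V × V)) : Submodule F V := R.comap (LinearMap.inr F V V)
/-- fixed vectors -/
def fix (R : Submodule F (V × V)) : Submodule F V := R.comap (diag V)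

lemma mem_dom {R : Submodule F (V × V)} {u : V} : u ∈ dom R ↔ ∃ v, (u, v) ∈ R := by
  simp [dom]
lemma mem_img {R : Submodule F (V × V)} {v : V} : v ∈ img R ↔ ∃ u, (u, v) ∈ R := by
  simp [img]
lemma mem_ker {R : Submodule F (V × V)} {u : V} : u ∈ ker R ↔ (u, 0) ∈ R := by
  simp [ker]
lemma mem_ind {R : Submodule F (V × V)} {u : V} : u ∈ ind R ↔ (0, u) ∈ R := by
  simp [ind]
lemma mem_fix {R : Submodule F (V × V)} {u : V} : u ∈ fix R ↔ (u, u) ∈ R := by
  simp [fix, diag]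

lemma fr_dom_ind (R : Submodule F (V × V)) : fr (dom R) + fr (ind R) = fr R := by
  have h1 := fr_map (LinearMap.fst F V V) R
  have h2 := fr_comap (LinearMap.inr F V V) R
  rw [LinearMap.ker_fst] at h1
  rw [LinearMap.ker_eq_bot.mpr LinearMap.inr_injective] at h2
  have : fr (⊥ : Submodule F V) = 0 := finrank_bot F V
  unfold dom ind
  omega

lemma fr_img_ker (R : Submodule F (V × V)) : fr (img R) + fr (ker R) = fr R := by
  have h1 := fr_map (LinearMap.snd F V V) R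
  have h2 := fr_comap (LinearMap.inl F V V) R
  rw [LinearMap.ker_snd] at h1
  rw [LinearMap.ker_eq_bot.mpr LinearMap.inl_injective] at h2
  have : fr (⊥ : Submodule F V) = 0 := finrank_bot F V
  unfold img ker
  omega

lemma ker_le_dom (R : Submodule F (V × V)) : ker R ≤ dom R :=
  fun _ h => mem_dom.mpr ⟨0, mem_ker.mp h⟩

/-- rank of a linear relation -/
noncomputable def rk (R : LR V) : ℕ := fr (dom R.s) - fr (ker R.s)

lemma rk_ker (R : LR V) : rk R + fr (ker R.s) = fr (dom R.s) := by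
  have := fr_mono (ker_le_dom R.s)
  unfold rk; omega

lemma rk_ind (R : LR V) : rk R + fr (ind R.s) = fr (img R.s) := by
  have := rk_ker R
  have := fr_dom_ind R.s
  have := fr_img_ker R.s
  omega

lemma dom_mul (R S : LR V) : dom (R * S).s ≤ dom R.s := fun u h => by
  obtain ⟨w, hw⟩ := mem_dom.mp h
  obtain ⟨v, h1, _⟩ := mem_mul.mp hw
  exact mem_dom.mpr ⟨v, h1⟩

lemma img_mul (R S : LR V) : img (R * S).s ≤ img S.s := fun u h => by
  obtain ⟨w, hw⟩ := mem_img.mp h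
  obtain ⟨v, _, h1⟩ := mem_mul.mp hw
  exact mem_img.mpr ⟨v, h1⟩

lemma ker_mul (R S : LR V) : ker R.s ≤ ker (R * S).s := fun _ h =>
  mem_ker.mpr (mem_mul.mpr ⟨0, mem_ker.mp h, S.s.zero_mem⟩)

lemma ind_mul (R S : LR V) : ind S.s ≤ ind (R * S).s := fun _ h =>
  mem_ind.mpr (mem_mul.mpr ⟨0, R.s.zero_mem, mem_ind.mp h⟩)

lemma rk_mul_left (R S : LR V) : rk (R * S) ≤ rk R := by
  have := rk_ker R
  have := rk_ker (R * S)
  have := fr_mono (dom_mul R S)
  have := fr_mono (ker_mul R S)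
  omega

lemma rk_mul_right (R S : LR V) : rk (R * S) ≤ rk S := by
  have := rk_ind S
  have := rk_ind (R * S)
  have := fr_mono (img_mul R S)
  have := fr_mono (ind_mul R S)
  omega

/-- the lattice distance -/
noncomputable def dist (R S : LR V) : ℕ := fr R.s + fr S.s - 2 * fr (R.s ⊓ S.s)

lemma dist_add (R S : LR V) : dist R S + 2 * fr (R.s ⊓ S.s) = fr R.s + fr S.s := by
  have h1 : fr (R.s ⊓ S.s) ≤ fr R.s := fr_mono inf_le_left
  have h2 : fr (R.s ⊓ S.s) ≤ fr S.s := fr_mono inf_le_right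
  unfold dist; omega

lemma dist_comm (R S : LR V) : dist R S = dist S R := by
  unfold dist; rw [inf_comm, add_comm]

lemma dist_le (R S : LR V) : dist R S ≤ 4 * finrank F V := by
  have h := dist_add R S
  have h1 := fr_le_top R.s
  have h2 := fr_le_top S.s
  rw [finrank_prod] at h1 h2
  omega

lemma eq_of_dist {R S : LR V} (h : dist R S = 0) : R = S := by
  have h0 := dist_add R S
  have h1 : fr (R.s ⊓ S.s) ≤ fr R.s := fr_mono inf_le_left
  have h2 : fr (R.s ⊓ S.s) ≤ fr S.s := fr_mono inf_le_right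
  have e1 : R.s ⊓ S.s = R.s := fr_eq inf_le_left (by omega)
  have e2 : R.s ⊓ S.s = S.s := fr_eq inf_le_right (by omega)
  exact LR.ext (e1.symm.trans e2)

lemma dist_triangle (R S T : LR V) : dist R T ≤ dist R S + dist S T := by
  have h1 := dist_add R S
  have h2 := dist_add S T
  have h3 := dist_add R T
  have h4 := fr_sup_inf (R.s ⊓ S.s) (S.s ⊓ T.s)
  have h5 : fr ((R.s ⊓ S.s) ⊔ (S.s ⊓ T.s)) ≤ fr S.s := fr_mono (sup_le inf_le_right inf_le_left)
  have h6 : fr ((R.s ⊓ S.s) ⊓ (S.s ⊓ T.s)) ≤ fr (R.s ⊓ T.s) :=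
    fr_mono (inf_le_inf inf_le_left inf_le_right)
  omega

lemma dist_of_cod {R S : LR V} {T : Submodule F (V × V)} {n m : ℕ} (h1 : Cod T R.s n)
    (h2 : Cod T S.s m) : dist R S ≤ n + m := by
  have := dist_add R S
  have : fr T ≤ fr (R.s ⊓ S.s) := fr_mono (le_inf h1.1 h2.1)
  have := h1.2
  have := h2.2
  omega

lemma cod_of_dist (R S : LR V) : ∃ n m, Cod (R.s ⊓ S.s) R.s n ∧ Cod (R.s ⊓ S.s) S.s m ∧
    n + m = dist R S := by
  have := dist_add R S
  have h1 : fr (R.s ⊓ S.s) ≤ fr R.s := fr_mono inf_le_left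
  have h2 : fr (R.s ⊓ S.s) ≤ fr S.s := fr_mono inf_le_right
  exact ⟨fr R.s - fr (R.s ⊓ S.s), fr S.s - fr (R.s ⊓ S.s), ⟨inf_le_left, by omega⟩,
    ⟨inf_le_right, by omega⟩, by omega⟩

lemma Cod.comp_left {A B : Submodule F (V × V)} {n : ℕ} (h : Cod A B n)
    (X : Submodule F (V × V)) : Cod (comp X A) (comp X B) n := by
  unfold comp
  rw [inf_comm, inf_comm (X.comap _)]
  exact ((h.comap _).inf _).map _

lemma Cod.comp_right {A B : Submodule F (V × V)} {n : ℕ} (h : Cod A B n)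
    (X : Submodule F (V × V)) : Cod (comp A X) (comp B X) n :=
  ((h.comap _).inf _).map _

lemma dist_mul_left (X R S : LR V) : dist (X * R) (X * S) ≤ dist R S := by
  obtain ⟨n, m, h1, h2, h⟩ := cod_of_dist R S
  rw [← h]
  exact dist_of_cod (h1.comp_left X.s) (h2.comp_left X.s)

lemma dist_mul_right (X R S : LR V) : dist (R * X) (S * X) ≤ dist R S := by
  obtain ⟨n, m, h1, h2, h⟩ := cod_of_dist R S
  rw [← h]
  exact dist_of_cod (h1.comp_right X.s) (h2.comp_right X.s)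

lemma mem_of_mul {R S T : LR V} (h : R * S = T) {a b c : V} (h1 : (a, b) ∈ R.s)
    (h2 : (b, c) ∈ S.s) : (a, c) ∈ T.s := by
  rw [← h]; exact mem_mul.mpr ⟨b, h1, h2⟩

lemma exists_fix {e : LR V} (he : e * e = e) {a b : V} (h : (a, b) ∈ e.s) :
    ∃ f, (a, f) ∈ e.s ∧ (f, f) ∈ e.s ∧ (f, b) ∈ e.s := by
  obtain ⟨f, -, h⟩ := exists_loop (fun x y => (x, y) ∈ e.s) (fun _ => True) b
    (fun _ _ _ => mem_of_mul he) (fun x hx => by
      rw [← he] at hx
      obtain ⟨v, h1, h2⟩ := mem_mul.mp hx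
      exact ⟨v, trivial, h1, h2⟩) a h
  exact ⟨f, h⟩

lemma exists_fix2 {e k : LR V} (he : e * e = e) (hk : k * k = k) (h1 : e * k = k)
    (h2 : k * e = k) {a b : V} (h : (a, b) ∈ k.s) :
    ∃ f, (f, f) ∈ e.s ∧ (a, f) ∈ k.s ∧ (f, f) ∈ k.s ∧ (f, b) ∈ k.s := by
  refine exists_loop (fun x y => (x, y) ∈ k.s) (fun f => (f, f) ∈ e.s) b
    (fun _ _ _ => mem_of_mul hk) (fun x hx => ?_) a h
  rw [← hk] at hx
  obtain ⟨v, hv1, hv2⟩ := mem_mul.mp hx
  rw [← h1] at hv2
  obtain ⟨v', hv3, hv4⟩ := mem_mul.mp hv2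
  obtain ⟨f, f1, f2, f3⟩ := exists_fix he hv3
  exact ⟨f, f2, mem_of_mul h2 hv1 f1, mem_of_mul h1 f3 hv4⟩

lemma sub_mem_ker {R : Submodule F (V × V)} {a f : V} (h1 : (a, f) ∈ R) (h2 : (f, f) ∈ R) :
    a - f ∈ ker R := by
  have := R.sub_mem h1 h2
  simpa [mem_ker] using this

lemma sub_mem_ind {R : Submodule F (V × V)} {a f : V} (h1 : (f, a) ∈ R) (h2 : (f, f) ∈ R) :
    a - f ∈ ind R := by
  have := R.sub_mem h1 h2
  simpa [mem_ind] using this

lemma dom_le {e k : LR V} (he : e * e = e) (hk : k * k = k) (h1 : e * k = k)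
    (h2 : k * e = k) : dom k.s ≤ fix (e.s ⊓ k.s) ⊔ ker k.s := by
  intro u hu
  obtain ⟨w, hw⟩ := mem_dom.mp hu
  obtain ⟨f, f1, f2, f3, _⟩ := exists_fix2 he hk h1 h2 hw
  exact Submodule.mem_sup.mpr ⟨f, mem_fix.mpr ⟨f1, f3⟩, u - f, sub_mem_ker f2 f3, by abel⟩

/-- comparable idempotents are close when their ranks are close -/
lemma dist_idem {e k : LR V} (he : e * e = e) (hk : k * k = k) (h1 : e * k = k)
    (h2 : k * e = k) : dist e k + 3 * rk k ≤ 3 * rk e := by
  have hd := dist_add e k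
  have a1 := rk_ker e
  have a2 := rk_ker k
  have a3 := rk_ind e
  have a4 := rk_ind k
  have a5 := fr_dom_ind e.s
  have a6 := fr_dom_ind k.s
  have a7 := fr_dom_ind (e.s ⊓ k.s)
  have b1 : dom k.s ≤ dom e.s := by rw [← h1]; exact dom_mul e k
  have b2 : img k.s ≤ img e.s := by rw [← h2]; exact img_mul k e
  have b3 : ker e.s ≤ ker k.s := by rw [← h1]; exact ker_mul e k
  have b4 : ind e.s ≤ ind k.s := by rw [← h2]; exact ind_mul k e
  have c1 : ind e.s ≤ ind (e.s ⊓ k.s) := fun u hu =>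
    mem_ind.mpr ⟨mem_ind.mp hu, mem_ind.mp (b4 hu)⟩
  have c2 : dom k.s ≤ dom (e.s ⊓ k.s) ⊔ ker k.s :=
    (dom_le he hk h1 h2).trans (sup_le_sup_right (fun u hu => mem_dom.mpr ⟨u, mem_fix.mp hu⟩) _)
  have c3 : ker e.s ≤ dom (e.s ⊓ k.s) ⊓ ker k.s := fun u hu =>
    ⟨mem_dom.mpr ⟨0, mem_ker.mp hu, mem_ker.mp (b3 hu)⟩, b3 hu⟩
  have d := fr_sup_inf (dom (e.s ⊓ k.s)) (ker k.s)
  have := fr_mono b1
  have := fr_mono b2
  have := fr_mono c1
  have := fr_mono c2
  have := fr_mono c3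
  omega

lemma diff_idem {e : LR V} (he : e * e = e) : e.s.map (diff V) ≤ ker e.s ⊔ ind e.s := by
  rintro _ ⟨⟨a, b⟩, h, rfl⟩
  obtain ⟨f, f1, f2, f3⟩ := exists_fix he h
  refine Submodule.mem_sup.mpr ⟨a - f, sub_mem_ker f1 f2, -(b - f),
    Submodule.neg_mem _ (sub_mem_ind f3 f2), ?_⟩
  simp [diff]

/-- The invariant carried by products of generators. -/
def Inv (Φ C : Submodule F V) (w : LR V) : Prop :=
  (∀ f ∈ Φ, (f, f) ∈ w.s) ∧ ∀ u v, (u, v) ∈ w.s → u - v ∈ C

lemma Inv.mul {Φ C : Submodule F V} {x y : LR V} (hx : Inv Φ C x) (hy : Inv Φ C y) :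
    Inv Φ C (x * y) := by
  refine ⟨fun f hf => mem_mul.mpr ⟨f, hx.1 f hf, hy.1 f hf⟩, fun u w h => ?_⟩
  obtain ⟨v, h1, h2⟩ := mem_mul.mp h
  have := C.add_mem (hx.2 _ _ h1) (hy.2 _ _ h2)
  simpa using this

lemma inv_of_le {lo hi : Submodule F (V × V)} {w : LR V} (h1 : lo ≤ w.s) (h2 : w.s ≤ hi) :
    Inv (fix lo) (hi.map (diff V)) w :=
  ⟨fun _ hf => h1 (mem_fix.mp hf), fun u v h => ⟨(u, v), h2 h, by simp [diff]⟩⟩

/-- The window lemma. -/
lemma window {e k : LR V} (he : e * e = e) (hk : k * k = k) (h1 : e * k = k)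
    (h2 : k * e = k) {lo hi : Submodule F (V × V)} {n m : ℕ} (hlo : Cod lo e.s n)
    (hhi : Cod e.s hi m) {w : LR V} (hw : Inv (fix (lo ⊓ k.s)) ((hi ⊔ k.s).map (diff V)) w) :
    rk k ≤ rk w + n + m := by
  have a1 := rk_ker k
  have a2 := rk_ker (k * w)
  have a3 := rk_mul_right k w
  have b1 : Cod (fix (lo ⊓ k.s) ⊔ ker k.s) (fix (e.s ⊓ k.s) ⊔ ker k.s) n :=
    ((hlo.inf _).comap _).sup _
  have b2 : fix (lo ⊓ k.s) ⊔ ker k.s ≤ dom (k * w).s := by
    refine sup_le (fun f hf => ?_) ((ker_mul k w).trans (ker_le_dom _))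
    exact mem_dom.mpr ⟨f, mem_mul.mpr ⟨f, (mem_fix.mp hf).2, hw.1 f hf⟩⟩
  have b3 := fr_mono (dom_le he hk h1 h2)
  have c1 : Cod (dom (((e.s ⊔ k.s).map (diff V)).comap (LinearMap.snd F V V) ⊓ k.s))
      (dom (((hi ⊔ k.s).map (diff V)).comap (LinearMap.snd F V V) ⊓ k.s)) m :=
    ((((hhi.sup _).map _).comap _).inf _).map _
  have c2 : ker (k * w).s ≤
      dom (((hi ⊔ k.s).map (diff V)).comap (LinearMap.snd F V V) ⊓ k.s) := by
    intro u hu
    obtain ⟨v, hv1, hv2⟩ := mem_mul.mp (mem_ker.mp hu)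
    have := hw.2 _ _ hv2
    rw [sub_zero] at this
    exact mem_dom.mpr ⟨v, this, hv1⟩
  have c3 : dom (((e.s ⊔ k.s).map (diff V)).comap (LinearMap.snd F V V) ⊓ k.s) ≤ ker k.s := by
    intro u hu
    obtain ⟨v, hv1, hv2⟩ := mem_dom.mp hu
    have b3 : ker e.s ≤ ker k.s := by rw [← h1]; exact ker_mul e k
    have b4 : ind e.s ≤ ind k.s := by rw [← h2]; exact ind_mul k e
    have hle : (e.s ⊔ k.s).map (diff V) ≤ ker k.s ⊔ ind k.s := by
      rw [Submodule.map_sup]
      exact sup_le ((diff_idem he).trans (sup_le_sup b3 b4)) (diff_idem hk)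
    obtain ⟨a, ha, b, hb, hab⟩ := Submodule.mem_sup.mp (hle hv1)
    have h3 : (u, a) ∈ k.s := by
      have := k.s.sub_mem hv2 (mem_ind.mp hb)
      simp only [LinearMap.snd_apply] at hab
      simpa [← hab] using this
    exact mem_ker.mpr (mem_of_mul hk h3 (mem_ker.mp ha))
  have := fr_mono b2
  have := fr_mono c2
  have := fr_mono c3
  have := b1.2
  have := c1.2
  omega

/-- sandwiching a finite family close to `e` -/
lemma sandwich {ι : Type} (e : LR V) (g : ι → LR V) (n : ℕ) (t : Finset ι)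
    (h : ∀ i ∈ t, dist e (g i) ≤ n) : ∃ (lo hi : Submodule F (V × V)) (a b : ℕ),
      Cod lo e.s a ∧ Cod e.s hi b ∧ a + b ≤ t.card * n ∧
        ∀ i ∈ t, lo ≤ (g i).s ∧ (g i).s ≤ hi := by
  classical
  induction t using Finset.induction_on with
  | empty => exact ⟨e.s, e.s, 0, 0, Cod.refl _, Cod.refl _, by simp, by simp⟩
  | insert i t hi ih =>
    obtain ⟨lo, hi', a, b, h1, h2, h3, h4⟩ := ih (fun j hj => h j (Finset.mem_insert_of_mem hj))
    obtain ⟨a', b', k1, k2, k3⟩ := cod_of_dist e (g i)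
    have k4 := h i (Finset.mem_insert_self _ _)
    refine ⟨lo ⊓ (g i).s, hi' ⊔ (g i).s, a' + a, b + b', ?_, ?_, ?_, ?_⟩
    · have := k1.inf lo
      rw [inf_eq_right.mpr h1.1, inf_assoc, inf_comm (g i).s, ← inf_assoc,
        inf_eq_right.mpr h1.1] at this
      exact this.trans h1
    · have := k2.sup hi'
      rw [sup_eq_right.mpr (inf_le_left.trans h2.1), sup_comm] at this
      exact h2.trans this
    · rw [Finset.card_insert_of_notMem hi, add_mul]; omega
    · intro j hj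
      rcases Finset.mem_insert.mp hj with rfl | hj
      · exact ⟨inf_le_right, le_sup_right⟩
      · exact ⟨inf_le_left.trans (h4 j hj).1, (h4 j hj).2.trans le_sup_left⟩

end Vale.Agent.P343
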